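import Vale.Agent.P080.C1.Liouville.Zoom

/-!
A10 (c): a profile all of whose gaps vanish is affine.
-/

namespace Vale.Agent.P080.C1

open Set Filter Topology
open scoped RealInnerProductSpace

set_option linter.unusedSectionVars false

variable {F : Type*} [NormedAddCommGroup F] [InnerProductSpace ℝ F] [FiniteDimensional ℝ F]
variable {C : ℝ} {w : ℝ → F → ℝ}

/-- Without gaps every slice is affine. -/
theorem slices_affine (hgap : GapLe 0 w) (hgap' : GapLe 0 (mir w)) (t : ℝ) :
    ∃ k : F, ∀ y, w t y = w t 0 + ⟪k, y⟫ := by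
  have hz : ∀ (g : F → ℝ), g 0 = 0 → (∀ (m : ℕ) (l : Fin m → ℝ) (η : Fin m → F),
      IsStencil l η → ∑ i, l i * g (η i) ≤ 0) → ∃ p : F, ∀ z, g z ≤ ⟪p, z⟫ := fun g => touching
  obtain ⟨p, hp⟩ := hz (fun z => w t z - w t 0) (sub_self _) fun m l η hs => by
    have e := hgap m t 0 l η hs
    rw [zero_mul, gap] at e
    simpa only [zero_add, mul_sub, Finset.sum_sub_distrib, ← Finset.sum_mul, hs.2.1, one_mul]
      using e
  obtain ⟨q, hq⟩ := hz (fun z => w t 0 - w t z) (sub_self _) fun m l η hs => by
    have e := hgap' m (-t) 0 l η hs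
    rw [zero_mul, gap] at e
    simp only [mir, neg_neg, zero_add, mul_neg, Finset.sum_neg_distrib] at e
    simp only [mul_sub, Finset.sum_sub_distrib, ← Finset.sum_mul, hs.2.1, one_mul]
    linarith
  have hsum : q = -p := by
    have h1 := hp (-(p + q))
    have h2 := hq (-(p + q))
    have h3 : ⟪p + q, p + q⟫ ≤ 0 := by
      simp only [inner_neg_right] at h1 h2
      rw [inner_add_left]; linarith
    rw [real_inner_self_nonpos] at h3
    exact eq_neg_of_add_eq_zero_right h3
  refine ⟨p, fun y => ?_⟩
  have h1 := hp y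
  have h2 := hq y
  rw [hsum, inner_neg_left] at h2
  linarith

theorem affine_of_gap_zero (hw : Prof C w) (hgap : GapLe 0 w) (hgap' : GapLe 0 (mir w)) :
    ∃ (a b : ℝ) (v : F), ∀ t y, w t y = a + b * t + ⟪v, y⟫ := by
  choose k hk using slices_affine hgap hgap'
  set a : ℝ → ℝ := fun t => w t 0
  -- the exact forward slope
  have hSp : ∀ {h : ℝ}, 0 < h → ∀ t y, Sp w h t y =
      (a (t + h) - a t + ⟪k (t + h) - k t, y⟫) / h + ‖k (t + h)‖ ^ 2 / 2 := by
    intro h hh t y
    have e : hlP w h t y = a (t + h) + ⟪k (t + h), y⟫ + h * (‖k (t + h)‖ ^ 2 / 2) := by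
      refine le_antisymm ?_ ?_
      · obtain ⟨z, hz⟩ := hlP_attained hw hh t y
        rw [hz, hk (t + h), inner_add_right]
        have e1 : ‖z - h • k (t + h)‖ ^ 2 / (2 * h) =
            ‖z‖ ^ 2 / (2 * h) - ⟪k (t + h), z⟫ + h * (‖k (t + h)‖ ^ 2 / 2) := by
          rw [norm_sub_sq_real, real_inner_smul_right, real_inner_comm z, norm_smul, mul_pow,
            Real.norm_eq_abs, sq_abs]
          field_simp
        have e2 : 0 ≤ ‖z - h • k (t + h)‖ ^ 2 / (2 * h) := by positivity
        linarith
      · refine le_trans (le_of_eq ?_) (le_hlP hw hh t y (h • k (t + h)))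
        rw [hk (t + h) (y + h • k (t + h)), inner_add_right, real_inner_smul_right,
          real_inner_self_eq_norm_sq, norm_smul, mul_pow, Real.norm_eq_abs, sq_abs]
        field_simp
        ring
    rw [Sp, e, hk t y, inner_sub_left]
    field_simp
    ring
  -- the slopes of the slices are midpoint affine
  have hmid : ∀ {h : ℝ}, 0 < h → ∀ t, k (t + 2 * h) - k t = (2 : ℝ) • (k (t + h) - k t) := by
    intro h hh t
    set D := (k (t + 2 * h) - k t) - (2 : ℝ) • (k (t + h) - k t) with hD
    set B := (a (t + 2 * h) - a t) / (2 * h) + ‖k (t + 2 * h)‖ ^ 2 / 2 -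
      ((a (t + h) - a t) / h + ‖k (t + h)‖ ^ 2 / 2)
    have key : ∀ y, 0 ≤ ⟪D, y⟫ / (2 * h) + B := by
      intro y
      have e := hw.mono t y (show h ∈ Ioi 0 from hh) (show 2 * h ∈ Ioi 0 by simp; linarith)
        (by linarith)
      simp only at e
      rw [hSp hh, hSp (by linarith)] at e
      have : ⟪D, y⟫ / (2 * h) + B = ((a (t + 2 * h) - a t + ⟪k (t + 2 * h) - k t, y⟫) / (2 * h)
          + ‖k (t + 2 * h)‖ ^ 2 / 2) - ((a (t + h) - a t + ⟪k (t + h) - k t, y⟫) / h
          + ‖k (t + h)‖ ^ 2 / 2) := by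
        rw [hD, inner_sub_left (k (t + 2 * h) - k t), real_inner_smul_left]
        simp only [B]
        field_simp
        ring
      linarith
    by_contra hne
    have hD0 : D ≠ 0 := sub_ne_zero.2 hne
    have hpos : 0 < ⟪D, D⟫ := by rw [real_inner_self_eq_norm_sq]; positivity
    have := key ((-(2 * h * (B + 1)) / ⟪D, D⟫) • D)
    rw [real_inner_smul_right, div_mul_cancel₀ _ hpos.ne'] at this
    field_simp at this
    linarith
  -- windows bound the slopes of the slices
  have hbd : ∀ τ : ℝ, ‖k τ - k 0‖ ≤ 4 * C := by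
    intro τ
    set r := |τ| + 1
    have hr : 0 < r := by positivity
    obtain ⟨b, v, hv⟩ := hw.window 0 0 r hr
    have hone : ∀ s : ℝ, |s| ≤ r → ‖k s - v‖ ≤ 2 * C := by
      intro s hs
      by_cases hz : k s - v = 0
      · rw [hz, norm_zero]
        have := (abs_nonneg _).trans (hv 0 0 (by simpa using hr.le) (by simpa using hr.le))
        nlinarith
      set z := (r / ‖k s - v‖) • (k s - v) with hzdef
      have hn : 0 < ‖k s - v‖ := norm_pos_iff.2 hz
      have hzn : ‖z‖ = r := by
        rw [hzdef, norm_smul, Real.norm_of_nonneg (by positivity), div_mul_cancel₀ _ hn.ne']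
      have e1 := (abs_le.1 (hv s z hs hzn.le)).2
      have e0 := (abs_le.1 (hv s 0 hs (by simpa using hr.le))).1
      simp only [zero_add, add_zero, inner_zero_right, sub_zero] at e1 e0
      rw [hk s, inner_add_right] at e1
      rw [hk s] at e0
      have e2 : ⟪k s - v, z⟫ = r * ‖k s - v‖ := by
        rw [hzdef, real_inner_smul_right, real_inner_self_eq_norm_sq]
        field_simp
      rw [inner_sub_left] at e2
      nlinarith
    calc ‖k τ - k 0‖ = ‖(k τ - v) - (k 0 - v)‖ := by rw [sub_sub_sub_cancel_right]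
      _ ≤ ‖k τ - v‖ + ‖k 0 - v‖ := norm_sub_le _ _
      _ ≤ 4 * C := by
        linarith [hone τ (by simp [r]), hone 0 (by simpa using hr.le)]
  -- hence they are constant
  have hconst_pos : ∀ s, 0 < s → k s = k 0 := by
    intro s hs
    by_contra hne
    have hn : 0 < ‖k s - k 0‖ := norm_pos_iff.2 (sub_ne_zero.2 hne)
    have hdbl : ∀ n : ℕ, k ((2 : ℝ) ^ n * s) - k 0 = ((2 : ℝ) ^ n) • (k s - k 0) := by
      intro n
      induction n with
      | zero => simp
      | succ n ih =>
        have e := hmid (mul_pos (pow_pos two_pos n) hs) 0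
        simp only [zero_add] at e
        rw [show (2 : ℝ) ^ (n + 1) * s = 2 * (2 ^ n * s) by ring, e, ih, smul_smul, pow_succ']
    obtain ⟨n, hn'⟩ := pow_unbounded_of_one_lt (4 * C / ‖k s - k 0‖) (one_lt_two (α := ℝ))
    have e := hbd ((2 : ℝ) ^ n * s)
    rw [hdbl, norm_smul, Real.norm_of_nonneg (by positivity)] at e
    rw [div_lt_iff₀ hn] at hn'
    linarith
  have hconst : ∀ s, k s = k 0 := by
    intro s
    rcases lt_trichotomy s 0 with hs | hs | hs
    · have e := hmid (show 0 < -s by linarith) s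
      rw [show s + 2 * -s = -s by ring, add_neg_cancel, hconst_pos (-s) (by linarith),
        two_smul] at e
      exact (sub_eq_zero.1 (left_eq_add.1 e)).symm
    · rw [hs]
    · exact hconst_pos s hs
  -- the time part
  set D : ℝ → ℝ → ℝ := fun t h => (a (t + h) - a t) / h
  have hDmono : ∀ t, MonotoneOn (D t) (Ioi 0) := fun t x hx y hy hxy => by
    have e := hw.mono t 0 hx hy hxy
    simp only at e
    rw [hSp hx, hSp hy, hconst (t + x), hconst (t + y)] at e
    simp only [inner_zero_right, add_zero] at e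
    simp only [D]
    linarith
  have hconc : ∀ {h : ℝ}, 0 < h → ∀ t, a (t + 2 * h) + a t ≤ 2 * a (t + h) := by
    intro h hh t
    have hval : ∀ x, 0 < x → Sm w x (t + 2 * h) 0 =
        (a (t + 2 * h) - a (t + 2 * h - x)) / x + ‖k 0‖ ^ 2 / 2 := by
      intro x hx
      have e : hlM w x (t + 2 * h) 0 = a (t + 2 * h - x) - x * (‖k 0‖ ^ 2 / 2) := by
        refine le_antisymm ?_ ?_
        · refine (hlM_le hw hx _ 0 ((-x) • k 0)).trans (le_of_eq ?_)
          rw [hk, hconst (t + 2 * h - x), inner_add_right, inner_zero_right, real_inner_smul_right,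
            real_inner_self_eq_norm_sq, norm_smul, mul_pow, Real.norm_eq_abs, sq_abs]
          field_simp
          ring
        · obtain ⟨z, hz⟩ := hlM_attained hw hx (t + 2 * h) (0 : F)
          rw [hz, hk _ (0 + z), hconst (t + 2 * h - x), zero_add]
          have e1 : ‖z + x • k 0‖ ^ 2 / (2 * x) =
              ‖z‖ ^ 2 / (2 * x) + ⟪k 0, z⟫ + x * (‖k 0‖ ^ 2 / 2) := by
            rw [norm_add_sq_real, real_inner_smul_right, real_inner_comm z, norm_smul, mul_pow,
              Real.norm_eq_abs, sq_abs]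
            field_simp
          have e2 : 0 ≤ ‖z + x • k 0‖ ^ 2 / (2 * x) := by positivity
          linarith
      rw [Sm, e]
      show (a (t + 2 * h) - _) / x = _
      field_simp
      ring
    have e := Sm_monotone hw (t + 2 * h) (0 : F) (show h ∈ Ioi 0 from hh)
      (show 2 * h ∈ Ioi 0 by simp; linarith) (by linarith)
    simp only at e
    rw [hval h hh, hval (2 * h) (by linarith), add_sub_cancel_right,
      show t + 2 * h - h = t + h by ring, add_le_add_iff_right,
      div_le_div_iff₀ hh (by linarith)] at e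
    nlinarith
  have hDtwo : ∀ t h, 0 < h → D t (2 * h) = D t h := by
    intro t h hh
    refine le_antisymm ?_ (hDmono t (show h ∈ Ioi 0 from hh) (show 2 * h ∈ Ioi 0 by simp; linarith)
      (by linarith))
    simp only [D]
    rw [div_le_div_iff₀ (by linarith) hh]
    nlinarith [hconc hh t]
  have hDc : ∀ t x y, 0 < x → x ≤ y → D t x = D t y := by
    intro t x y hx hxy
    obtain ⟨n, hn⟩ := pow_unbounded_of_one_lt (y / x) (one_lt_two (α := ℝ))
    rw [div_lt_iff₀ hx] at hn
    have hit : ∀ n : ℕ, D t (2 ^ n * x) = D t x := by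
      intro n
      induction n with
      | zero => simp
      | succ n ih =>
        rw [show (2 : ℝ) ^ (n + 1) * x = 2 * (2 ^ n * x) by ring,
          hDtwo t _ (by positivity), ih]
    refine le_antisymm (hDmono t (show x ∈ Ioi 0 from hx) (lt_of_lt_of_le hx hxy) hxy) ?_
    refine (hDmono t (lt_of_lt_of_le hx hxy) ?_ hn.le).trans_eq (hit n)
    show (0 : ℝ) < 2 ^ n * x
    positivity
  refine ⟨a 0, a 1 - a 0, k 0, fun t y => ?_⟩
  rw [hk t y, hconst t]
  show a t + _ = _
  have hlin : a t = a 0 + (a 1 - a 0) * t := by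
    rcases lt_trichotomy t 0 with ht | ht | ht
    · have e := hDc t (-t) (1 - t) (by linarith) (by linarith)
      simp only [D, add_neg_cancel, add_sub_cancel] at e
      rw [div_eq_div_iff (by linarith) (by linarith)] at e
      linarith
    · simp [ht]
    · rcases le_total t 1 with h1 | h1
      · have e := hDc 0 t 1 ht h1
        simp only [D, zero_add, div_one] at e
        rw [div_eq_iff ht.ne'] at e
        linarith
      · have e := hDc 0 1 t one_pos h1
        simp only [D, zero_add, div_one] at e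
        rw [eq_div_iff ht.ne'] at e
        linarith
  rw [hlin]

end Vale.Agent.P080.C1
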