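import Vale.Agent.P080.C1.Liouville.Zoom
import Vale.Agent.P080.C1.Limit

/-!
A10 (b): gaps and slopes along a converging sequence of normalised profiles.
-/

namespace Vale.Agent.P080.C1

open Set Filter Topology
open scoped RealInnerProductSpace

set_option linter.unusedSectionVars false

variable {F : Type*} [NormedAddCommGroup F] [InnerProductSpace ℝ F] [FiniteDimensional ℝ F]
variable {C : ℝ} {w : ℝ → F → ℝ} {W : ℕ → ℝ → F → ℝ}

theorem Sp_tendsto (hW : ∀ n, Prof C (W n))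
    (h : TendstoLocallyUniformly (fun n (X : ℝ × F) => W n X.1 X.2) (fun X => w X.1 X.2) atTop)
    (hw : Prof C w) {s : ℝ} (hs : 0 < s) :
    Tendsto (fun n => Sp (W n) s 0 0) atTop (𝓝 (Sp w s 0 0)) :=
  ((hlP_tendsto hW h hs (tendsto_const_nhds (x := (0 : ℝ))) (tendsto_const_nhds (x := (0 : F)))).sub
    (h.tendsto_comp (x := ((0 : ℝ), (0 : F))) (g := fun _ => ((0 : ℝ), (0 : F)))
      hw.continuous.continuousAt tendsto_const_nhds)).div_const s

theorem Sm_tendsto (hW : ∀ n, Prof C (W n))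
    (h : TendstoLocallyUniformly (fun n (X : ℝ × F) => W n X.1 X.2) (fun X => w X.1 X.2) atTop)
    (hw : Prof C w) {s : ℝ} (hs : 0 < s) :
    Tendsto (fun n => Sm (W n) s 0 0) atTop (𝓝 (Sm w s 0 0)) := by
  have e := Sp_tendsto (fun n => (hW n).mirror) (mir_tendsto h) hw.mirror hs
  have key : ∀ f : ℝ → F → ℝ, Sp (mir f) s 0 0 = Sm f s 0 0 := fun f => by
    simpa using Sp_mir f s 0 (0 : F)
  simpa only [key] using e

/-- Gaps of bounded stencils near bounded centres converge along a subsequence. -/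
theorem gap_tendsto {m : ℕ} {ρ B : ℝ} (hW : ∀ n, Prof C (W n)) (h0 : ∀ n, W n 0 0 = 0)
    (hwin : ∀ n, IsWin C (W n) 0 0 1 0 0)
    (h : TendstoLocallyUniformly (fun n (X : ℝ × F) => W n X.1 X.2) (fun X => w X.1 X.2) atTop)
    (hw : Prof C w) {T : ℕ → ℝ} {Y : ℕ → F} {T' : ℝ} {Y' : F} (hT : Tendsto T atTop (𝓝 T'))
    (hY : Tendsto Y atTop (𝓝 Y')) (hB : ∀ n, |T n| + ‖Y n‖ ≤ B) {L : ℕ → Fin m → ℝ}
    {η : ℕ → Fin m → F} (hs : ∀ n, IsStencil (L n) (η n)) (hρ : ∀ n, spread (L n) (η n) ≤ ρ) :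
    ∃ (φ : ℕ → ℕ) (l : Fin m → ℝ) (e : Fin m → F), StrictMono φ ∧ IsStencil l e ∧
      spread l e ≤ ρ ∧
      Tendsto (fun n => gap (W (φ n)) (T (φ n)) (Y (φ n)) (L (φ n)) (η (φ n))) atTop
        (𝓝 (gap w T' Y' l e)) := by
  obtain ⟨c, hc, hg⟩ := growth (F := F) C
  have hB0 : 0 ≤ B := le_trans (add_nonneg (abs_nonneg (T 0)) (norm_nonneg (Y 0))) (hB 0)
  obtain ⟨φ, l, e, hφ, hst, hspread, hlim⟩ :=
    stencil_compact (K := 2 * (c * ((1 + B) * Real.sqrt (1 + B)))) hs hρ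
  refine ⟨φ, l, e, hφ, hst, ?_, ?_⟩
  · refine le_of_forall_pos_le_add fun δ hδ => ?_
    obtain ⟨n, hn⟩ := (hspread δ hδ).exists
    linarith [hρ (φ n)]
  have hcont : Continuous fun X : ℝ × F => w X.1 X.2 := hw.continuous
  set g : ℕ → F → ℝ := fun n z =>
    W (φ n) (T (φ n)) (Y (φ n) + z) - W (φ n) (T (φ n)) (Y (φ n)) with hgdef
  set f : F → ℝ := fun z => w T' (Y' + z) - w T' Y' with hfdef
  have hfc : Continuous f :=
    (hcont.comp (continuous_const.prodMk (continuous_const.add continuous_id))).sub continuous_const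
  have hTφ := hT.comp hφ.tendsto_atTop
  have hYφ := hY.comp hφ.tendsto_atTop
  have hjoint : ∀ x : ℝ × F, Tendsto (fun q : ℕ × (ℝ × F) => W q.1 q.2.1 q.2.2)
      (atTop ×ˢ 𝓝 x) (𝓝 (w x.1 x.2)) := by
    intro x
    rw [tendstoLocallyUniformly_iff_forall_tendsto] at h
    refine Uniform.tendsto_nhds_right.2 ?_
    refine Filter.Tendsto.uniformity_trans ?_ (h x)
    exact (Uniform.tendsto_nhds_right.1 hcont.continuousAt.tendsto).comp tendsto_snd
  have hconv : TendstoLocallyUniformly g f atTop := by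
    rw [tendstoLocallyUniformly_iff_forall_tendsto]
    intro x
    have e1 : Tendsto (fun q : ℕ × F => g q.1 q.2) (atTop ×ˢ 𝓝 x) (𝓝 (f x)) := by
      refine Tendsto.sub ?_ ?_
      · exact (hjoint (T', Y' + x)).comp (((hφ.tendsto_atTop.comp tendsto_fst).prodMk
          (((hTφ.comp tendsto_fst).prodMk_nhds ((hYφ.comp tendsto_fst).add tendsto_snd)))))
      · exact (hjoint (T', Y')).comp (((hφ.tendsto_atTop.comp tendsto_fst).prodMk
          (((hTφ.comp tendsto_fst).prodMk_nhds (hYφ.comp tendsto_fst)))))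
    have e2 : Tendsto (fun q : ℕ × F => f q.2) (atTop ×ˢ 𝓝 x) (𝓝 (f x)) :=
      hfc.continuousAt.tendsto.comp tendsto_snd
    exact (Uniform.tendsto_nhds_left.1 e2).uniformity_trans (Uniform.tendsto_nhds_right.1 e1)
  have hbound : ∀ n z,
      |g n z| ≤ 2 * (c * ((1 + B) * Real.sqrt (1 + B))) * ((1 + ‖z‖) * Real.sqrt (1 + ‖z‖)) := by
    intro n z
    have hb : ∀ u : F, ‖u‖ ≤ ‖Y (φ n)‖ + ‖z‖ → |W (φ n) (T (φ n)) u| ≤
        c * ((1 + B) * Real.sqrt (1 + B)) * ((1 + ‖z‖) * Real.sqrt (1 + ‖z‖)) := by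
      intro u hu
      have e := hg (hW (φ n)) one_pos (hwin (φ n)) (T (φ n)) u
      simp only [smul_zero, zero_add, h0, sub_zero, norm_zero, inner_zero_left, mul_one,
        div_one] at e
      norm_num at e
      have hle : 1 + (|T (φ n)| + ‖u‖) ≤ (1 + B) * (1 + ‖z‖) := by
        nlinarith [hB (φ n), norm_nonneg z]
      refine e.trans ?_
      calc c * ((1 + (|T (φ n)| + ‖u‖)) * Real.sqrt (1 + (|T (φ n)| + ‖u‖)))
          ≤ c * ((1 + B) * (1 + ‖z‖) * Real.sqrt ((1 + B) * (1 + ‖z‖))) := by gcongr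
        _ = _ := by rw [Real.sqrt_mul (by linarith)]; ring
    have e1 := hb (Y (φ n) + z) (norm_add_le _ _)
    have e2 := hb (Y (φ n)) (le_add_of_nonneg_right (norm_nonneg _))
    calc |g n z| ≤ |W (φ n) (T (φ n)) (Y (φ n) + z)| + |W (φ n) (T (φ n)) (Y (φ n))| :=
          abs_sub _ _
      _ ≤ _ := by linarith
  have key : ∀ (f' : ℝ → F → ℝ) (t : ℝ) (y : F) (l' : Fin m → ℝ) (e' : Fin m → F),
      IsStencil l' e' → gap f' t y l' e' = ∑ i, l' i * (f' t (y + e' i) - f' t y) := by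
    intro f' t y l' e' hs'
    rw [gap]
    simp only [mul_sub, Finset.sum_sub_distrib, ← Finset.sum_mul, hs'.2.1, one_mul]
  rw [key w T' Y' l e hst]
  exact (hlim g f hconv hfc hbound).congr fun n => (key _ _ _ _ _ (hs (φ n))).symm

end Vale.Agent.P080.C1
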