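import Vale.Agent.P080.C1.Liouville.Extremal
import Vale.Agent.P080.C1.Ascent
import Vale.Agent.P080.C1.FlatLemma

/-!
A10 (e): no profile has a positive gap. The largest gap would be attained, propagate to all small
scales with bounded slopes, hence to a zoom with constant slopes, which is affine.
-/

namespace Vale.Agent.P080.C1

open Set Filter Topology
open scoped RealInnerProductSpace

set_option linter.unusedSectionVars false

variable {F : Type*} [NormedAddCommGroup F] [InnerProductSpace ℝ F] [FiniteDimensional ℝ F]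
variable {C : ℝ} {w : ℝ → F → ℝ}

/-- A bounded sequence drops little over some long block. -/
theorem pigeonhole {g : ℕ → ℝ} {D : ℝ} {P : ℕ} (hP : 1 ≤ P)
    (hD : ∀ i, 1 ≤ i → |g i| ≤ D) :
    ∃ i, P + 1 ≤ i ∧ i + P ≤ 2 * P * P + 1 ∧ g (i - P) - g (i + P) ≤ 2 * D / P := by
  have htel : ∑ j ∈ Finset.range P, (g (1 + 2 * P * j) - g (1 + 2 * P * (j + 1))) =
      g (1 + 2 * P * 0) - g (1 + 2 * P * P) :=
    Finset.sum_range_sub' (fun j => g (1 + 2 * P * j)) P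
  have hle : ∑ j ∈ Finset.range P, (g (1 + 2 * P * j) - g (1 + 2 * P * (j + 1))) ≤
      ∑ _j ∈ Finset.range P, 2 * D / P := by
    rw [htel, Finset.sum_const, Finset.card_range, nsmul_eq_mul,
      mul_div_cancel₀ _ (show (P : ℝ) ≠ 0 by exact_mod_cast (show P ≠ 0 by omega))]
    have := abs_le.1 (hD (1 + 2 * P * 0) (by omega))
    have := abs_le.1 (hD (1 + 2 * P * P) (by omega))
    linarith
  obtain ⟨j, hj, hjle⟩ :=
    Finset.exists_le_of_sum_le (Finset.nonempty_range_iff.2 (by omega)) hle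
  have hj' := Finset.mem_range.1 hj
  refine ⟨1 + 2 * P * j + P, by omega, ?_, ?_⟩
  · have : 2 * P * (j + 1) ≤ 2 * P * P := Nat.mul_le_mul le_rfl hj'
    rw [Nat.mul_succ] at this
    omega
  · rwa [Nat.add_sub_cancel, show 1 + 2 * P * j + P + P = 1 + 2 * P * (j + 1) by ring]

/-- Along a saturated stencil descended to arbitrarily small scales there are zooms with slopes
constant over arbitrarily many scales and a stencil of the largest gap nearby. -/
theorem exists_zooms {G : ℝ} (hG : 0 < G) (hall : ∀ f : ℝ → F → ℝ, Prof C f → GapLe G f)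
    (hw : Prof C w) (h0 : w 0 0 = 0) (hwin : IsWin C w 0 0 1 0 0) {m : ℕ} {l₀ : Fin m → ℝ}
    {η₀ : Fin m → F} (hsat : Saturated G w 0 0 l₀ η₀) (h1 : spread l₀ η₀ = 1) :
    ∃ (R' D : ℝ) (W : ℕ → ℝ → F → ℝ) (T : ℕ → ℝ) (Y : ℕ → F)
      (L : ℕ → Fin (Module.finrank ℝ F + 2) → ℝ) (η : ℕ → Fin (Module.finrank ℝ F + 2) → F),
      ∀ n, Prof C (W n) ∧ W n 0 0 = 0 ∧ IsWin C (W n) 0 0 1 0 0 ∧
        |T n| ≤ R' ∧ ‖Y n‖ ≤ R' ∧ IsStencil (L n) (η n) ∧ spread (L n) (η n) ≤ 3 ∧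
        G ≤ gap (W n) (T n) (Y n) (L n) (η n) ∧
        ∀ s, (1 / 2 : ℝ) ^ (n + 1) ≤ s → s ≤ (2 : ℝ) ^ (n + 1) →
          |Sp (W n) s 0 0 - Sp (W n) 1 0 0| ≤ D / (n + 1) ∧
          |Sm (W n) s 0 0 - Sm (W n) 1 0 0| ≤ D / (n + 1) := by
  obtain ⟨R, K, hR, -, hprop⟩ := propagate (F := F) C G hG
  obtain ⟨c1, hc1, hdrift⟩ := drift_space (F := F) C
  obtain ⟨c2, hc2, hbound⟩ := hlP_bound (F := F) C
  obtain ⟨R', hR', hasc⟩ := ascent_chain (F := F) C G hG
  set Λ : ℝ := c1 * (1 + Real.log (1 + 2 * R)) ^ 2 + c2 with hΛ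
  set M : ℝ := 3 * |Λ| + |K| with hM
  suffices H : ∀ n : ℕ, ∃ (f : ℝ → F → ℝ) (T : ℝ) (Y : F)
      (L : Fin (Module.finrank ℝ F + 2) → ℝ) (η : Fin (Module.finrank ℝ F + 2) → F),
      Prof C f ∧ f 0 0 = 0 ∧ IsWin C f 0 0 1 0 0 ∧ |T| ≤ R' ∧ ‖Y‖ ≤ R' ∧ IsStencil L η ∧
        spread L η ≤ 3 ∧ G ≤ gap f T Y L η ∧
        ∀ s, (1 / 2 : ℝ) ^ (n + 1) ≤ s → s ≤ (2 : ℝ) ^ (n + 1) →
          |Sp f s 0 0 - Sp f 1 0 0| ≤ 2 * (2 * M) / (n + 1) ∧
          |Sm f s 0 0 - Sm f 1 0 0| ≤ 2 * (2 * M) / (n + 1) by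
    choose W T Y L η hprops using H
    exact ⟨R', _, W, T, Y, L, η, hprops⟩
  intro n
  set P := n + 1 with hPdef
  set a : ℝ := (1 / 2) ^ (2 * P * P + 1) with ha
  have ha2 : a ≤ 1 / 2 := by
    rw [ha, pow_succ]
    exact mul_le_of_le_one_left (by norm_num) (pow_le_one₀ (by norm_num) (by norm_num))
  obtain ⟨t, y, l₁, η₁, hsat₁, hlo, hhi, ht, hy, hK⟩ :=
    (hprop hw (hall w hw) h0 hwin hsat h1).1 a (by positivity) ha2
  obtain ⟨b₁, v₁, hwin₁⟩ := hw.window t y 1 one_pos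
  have hb₁ : |b₁| ≤ Λ - c2 := by
    have e := (hdrift hw one_pos hwin t y (b' := b₁) (v' := v₁)
      (by simpa using hwin₁) ((|t| + ‖y‖) / 1) rfl).2
    rw [sub_zero, div_one] at e
    have hq : 0 ≤ |t| + ‖y‖ := by positivity
    have hl := Real.log_le_log (by linarith)
      (show 1 + (|t| + ‖y‖) ≤ 1 + 2 * R by linarith)
    have hl0 := Real.log_nonneg (show (1 : ℝ) ≤ 1 + (|t| + ‖y‖) by linarith)
    have hsq := pow_le_pow_left₀ (by linarith)
      (show 1 + Real.log (1 + (|t| + ‖y‖)) ≤ 1 + Real.log (1 + 2 * R) by linarith) 2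
    nlinarith [mul_le_mul_of_nonneg_left hsq hc1.le]
  obtain ⟨hP1, hM1, -, -⟩ := hbound hw one_pos hwin₁
  have hup : ∀ x, 0 < x → x ≤ 1 → Sp w x t y ≤ Λ ∧ Sm w x t y ≤ Λ := fun x hx hx1 =>
    ⟨(hw.mono t y hx (mem_Ioi.2 one_pos) hx1).trans
        (by linarith [(abs_le.1 hP1).2, (abs_le.1 hb₁).2]),
      (Sm_monotone hw t y hx (mem_Ioi.2 one_pos) hx1).trans
        (by linarith [(abs_le.1 hM1).2, (abs_le.1 hb₁).2])⟩
  have hlow : ∀ x, 0 < x → x ≤ 1 / 2 → |Sp w x t y| ≤ M ∧ |Sm w x t y| ≤ M := by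
    intro x hx hx1
    have u := hup x hx (by linarith)
    have u2 := hup (2 * x) (by linarith) (by linarith)
    have v := hup (x / 2) (by linarith) (by linarith)
    have k1 := hK x hx
    have k2 := hK (x / 2) (by linarith)
    rw [show 2 * (x / 2) = x by ring] at k2
    have := le_abs_self Λ
    have := abs_nonneg Λ
    have := le_abs_self K
    have := abs_nonneg K
    constructor <;> rw [abs_le] <;> constructor <;> linarith [u.1, u.2, u2.2, v.1]
  set g : ℕ → ℝ := fun i => Sp w ((1 / 2) ^ i) t y + Sm w ((1 / 2) ^ i) t y with hgdef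
  have hgD : ∀ i, 1 ≤ i → |g i| ≤ 2 * M := fun i hi => by
    have e := hlow ((1 / 2) ^ i) (by positivity)
      (by simpa using pow_le_pow_of_le_one (by norm_num : (0 : ℝ) ≤ 1 / 2) (by norm_num) hi)
    refine (abs_add_le _ _).trans ?_
    linarith [e.1, e.2]
  obtain ⟨i, hi, hi', hvar⟩ := pigeonhole (show 1 ≤ P by omega) hgD
  set h : ℝ := (1 / 2) ^ i with hh
  have hhpos : 0 < h := by positivity
  have hah : a ≤ h := pow_le_pow_of_le_one (by norm_num) (by norm_num) (by omega)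
  obtain ⟨b, v, hwinh⟩ := hw.window t y h hhpos
  obtain ⟨τ, z, l', η', hsat', hlo', hhi', hτ, hz⟩ :=
    hasc hw (hall w hw) hsat₁ (lt_of_lt_of_le (by positivity) hlo) (hhi.trans hah) hwinh
  refine ⟨zoom w t y h b v, τ / h, h⁻¹ • z, l', fun k => h⁻¹ • η' k, hw.zoom t y hhpos b v,
    zoom_origin .., isWin_zoom hhpos hwinh, ?_, ?_, isStencil_smul hsat'.1 _, ?_, ?_, ?_⟩
  · rw [abs_div, abs_of_pos hhpos, div_le_iff₀ hhpos]; exact hτ
  · rw [norm_smul, norm_inv, Real.norm_of_nonneg hhpos.le, inv_mul_le_iff₀ hhpos]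
    linarith [hz]
  · rw [spread_smul _ _ (inv_nonneg.2 hhpos.le), inv_mul_le_iff₀ hhpos]
    linarith [hhi']
  · rw [gap_zoom w t y h b v _ _ (isStencil_smul hsat'.1 _)]
    have e1 : t + h * (τ / h) = t + τ := by field_simp
    have e2 : y + h • (h⁻¹ • z + (τ / h) • v) = y + τ • v + z := by
      rw [smul_add, smul_inv_smul₀ hhpos.ne', smul_smul, mul_div_cancel₀ _ hhpos.ne']
      abel
    simp only [e1, e2, smul_inv_smul₀ hhpos.ne']
    rw [hsat'.2, le_div_iff₀ hhpos]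
    exact mul_le_mul_of_nonneg_left hlo' hG.le
  intro s hs hs'
  have hspos : 0 < s := lt_of_lt_of_le (by positivity) hs
  have etop : h * (2 : ℝ) ^ P = (1 / 2) ^ (i - P) := by
    obtain ⟨k, rfl⟩ : ∃ k, i = k + P := ⟨i - P, by omega⟩
    rw [hh, Nat.add_sub_cancel, pow_add, mul_assoc, ← mul_pow]
    norm_num
  have ebot : h * (1 / 2 : ℝ) ^ P = (1 / 2) ^ (i + P) := by rw [hh, ← pow_add]
  have hone : (1 / 2 : ℝ) ^ P ≤ 1 ∧ (1 : ℝ) ≤ 2 ^ P :=
    ⟨pow_le_one₀ (by norm_num) (by norm_num), one_le_pow₀ (by norm_num)⟩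
  have hcast : ((P : ℕ) : ℝ) = n + 1 := by rw [hPdef]; push_cast; ring
  rw [hcast] at hvar
  have hmem : ∀ x, (1 / 2 : ℝ) ^ P ≤ x → x ≤ (2 : ℝ) ^ P →
      (Sp w ((1 / 2) ^ (i + P)) t y ≤ Sp w (h * x) t y ∧
        Sp w (h * x) t y ≤ Sp w ((1 / 2) ^ (i - P)) t y) ∧
      (Sm w ((1 / 2) ^ (i + P)) t y ≤ Sm w (h * x) t y ∧
        Sm w (h * x) t y ≤ Sm w ((1 / 2) ^ (i - P)) t y) := by
    intro x hx hx'
    have hxp : h * x ∈ Ioi (0 : ℝ) :=
      mem_Ioi.2 (mul_pos hhpos (lt_of_lt_of_le (by positivity) hx))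
    have b1 : (1 / 2 : ℝ) ^ (i + P) ≤ h * x := ebot ▸ mul_le_mul_of_nonneg_left hx hhpos.le
    have b2 : h * x ≤ (1 / 2 : ℝ) ^ (i - P) := etop ▸ mul_le_mul_of_nonneg_left hx' hhpos.le
    exact ⟨⟨hw.mono t y (mem_Ioi.2 (by positivity)) hxp b1,
        hw.mono t y hxp (mem_Ioi.2 (by positivity)) b2⟩,
      ⟨Sm_monotone hw t y (mem_Ioi.2 (by positivity)) hxp b1,
        Sm_monotone hw t y hxp (mem_Ioi.2 (by positivity)) b2⟩⟩
  have m1 := hmem s hs hs'
  have m0 := hmem 1 hone.1 hone.2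
  rw [mul_one] at m0
  rw [Sp_zoom hw t y hhpos b v hspos, Sp_zoom hw t y hhpos b v one_pos,
    Sm_zoom hw t y hhpos b v hspos, Sm_zoom hw t y hhpos b v one_pos, mul_one,
    sub_sub_sub_cancel_right, sub_sub_sub_cancel_right]
  simp only [hgdef] at hvar
  constructor <;> rw [abs_le] <;> constructor <;>
    linarith [m1.1.1, m1.1.2, m1.2.1, m1.2.2, m0.1.1, m0.1.2, m0.2.1, m0.2.2]

/-- No gap is positive. -/
theorem gap_nonpos (hw : Prof C w) : GapLe 0 w := by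
  intro m₀ t₀ y₀ l₀ η₀ hs₀
  rw [zero_mul]
  by_contra hcon
  obtain ⟨G, hG, hall, f, l, η, hf, hf0, hfwin, hsat, h1⟩ :=
    exists_extremal hw hs₀ (not_le.1 hcon)
  obtain ⟨R', D, W, T, Y, L, e, hprops⟩ := exists_zooms hG hall hf hf0 hfwin hsat h1
  choose hW hW0 hWwin hT hY hL hL3 hgapW hslope using hprops
  obtain ⟨φ, g, hφ, hg, -, -, hlim⟩ := prof_compact hW hW0 hWwin
  obtain ⟨X', -, ψ, hψ, hX⟩ :=
    ((isCompact_Icc (a := -R') (b := R')).prod (isCompact_closedBall (0 : F) R')).tendsto_subseq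
      (x := fun n => (T (φ n), Y (φ n))) fun n =>
        Set.mk_mem_prod (abs_le.1 (hT (φ n))) (mem_closedBall_zero_iff.2 (hY (φ n)))
  have hlim' : TendstoLocallyUniformly (fun n (X : ℝ × F) => W (φ (ψ n)) X.1 X.2)
      (fun X => g X.1 X.2) atTop := fun u hu x => by
    obtain ⟨t, ht, hev⟩ := hlim u hu x
    exact ⟨t, ht, hψ.tendsto_atTop.eventually hev⟩
  obtain ⟨χ, l', e', -, hst, -, hglim⟩ := gap_tendsto (ρ := 3) (B := 2 * R')
    (fun n => hW (φ (ψ n))) (fun n => hW0 (φ (ψ n))) (fun n => hWwin (φ (ψ n))) hlim' hg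
    ((continuous_fst.tendsto X').comp hX) ((continuous_snd.tendsto X').comp hX)
    (fun n => by
      have := hT (φ (ψ n)); have := hY (φ (ψ n))
      simp only [Function.comp]; linarith)
    (fun n => hL (φ (ψ n))) fun n => hL3 (φ (ψ n))
  have hge : G ≤ gap g X'.1 X'.2 l' e' :=
    ge_of_tendsto' hglim fun n => hgapW (φ (ψ (χ n)))
  have hzero : Tendsto (fun n : ℕ => D / ((n : ℝ) + 1)) atTop (𝓝 0) := by
    simpa [div_eq_mul_inv] using tendsto_one_div_add_atTop_nhds_zero_nat.const_mul D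
  have hphi : Tendsto φ atTop atTop := hφ.tendsto_atTop
  have hconst : ∀ s, 0 < s → Sp g s 0 0 = Sp g 1 0 0 ∧ Sm g s 0 0 = Sm g 1 0 0 := by
    intro s hs
    have ev : ∀ᶠ n in atTop, (1 / 2 : ℝ) ^ (φ n + 1) ≤ s ∧ s ≤ (2 : ℝ) ^ (φ n + 1) :=
      (((tendsto_add_atTop_nat 1).comp hphi).eventually (((tendsto_pow_atTop_nhds_zero_of_lt_one
          (show (0 : ℝ) ≤ 1 / 2 by norm_num) (by norm_num)).eventually_le_const hs).and
        ((tendsto_pow_atTop_atTop_of_one_lt (show (1 : ℝ) < 2 by norm_num)).eventually_ge_atTop s)))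
    have mk : ∀ (S : (ℝ → F → ℝ) → ℝ → ℝ),
        (∀ x, 0 < x → Tendsto (fun n => S (W (φ n)) x) atTop (𝓝 (S g x))) →
        (∀ᶠ n in atTop, |S (W (φ n)) s - S (W (φ n)) 1| ≤ D / ((φ n : ℝ) + 1)) →
        S g s = S g 1 := by
      intro S hS hev
      have l2 : Tendsto (fun n => S (W (φ n)) s - S (W (φ n)) 1) atTop (𝓝 0) :=
        squeeze_zero_norm' hev (hzero.comp hphi)
      exact sub_eq_zero.1 (tendsto_nhds_unique ((hS s hs).sub (hS 1 one_pos)) l2)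
    exact ⟨mk (fun f x => Sp f x 0 0) (fun x hx => Sp_tendsto (fun n => hW (φ n)) hlim hg hx)
        (ev.mono fun n hn => (hslope (φ n) s hn.1 hn.2).1),
      mk (fun f x => Sm f x 0 0) (fun x hx => Sm_tendsto (fun n => hW (φ n)) hlim hg hx)
        (ev.mono fun n hn => (hslope (φ n) s hn.1 hn.2).2)⟩
  obtain ⟨a, b, v, haff⟩ :=
    flat_point_affine hg (fun s hs => (hconst s hs).1) fun s hs => (hconst s hs).2
  have hm : ∑ i, l' i * ⟪v, e' i⟫ = 0 := by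
    simp_rw [← real_inner_smul_right]
    rw [← inner_sum, hst.2.2, inner_zero_right]
  have : gap g X'.1 X'.2 l' e' = 0 := by
    simp only [gap, haff, inner_add_right, mul_add, Finset.sum_add_distrib, ← Finset.sum_mul,
      hst.2.1, hm]
    ring
  linarith

end Vale.Agent.P080.C1
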