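import Vale.Agent.P080.C1.Liouville.Converge

/-!
A10 (d): if some profile has a positive gap, the largest gap per unit spread is attained.
-/

namespace Vale.Agent.P080.C1

open Set Filter Topology
open scoped RealInnerProductSpace

set_option linter.unusedSectionVars false

variable {F : Type*} [NormedAddCommGroup F] [InnerProductSpace ℝ F] [FiniteDimensional ℝ F]
variable {C : ℝ} {w : ℝ → F → ℝ}

theorem gap_le_of_spread_zero {m : ℕ} (hw : Prof C w) {t : ℝ} {y : F} {l : Fin m → ℝ}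
    {η : Fin m → F} (hs : IsStencil l η) (h : spread l η = 0) : gap w t y l η ≤ 0 := by
  obtain ⟨c, -, hc⟩ := gap_le_spread (F := F) C
  simpa [h] using hc hw t y hs

theorem exists_extremal {m₀ : ℕ} (hw : Prof C w) {t₀ : ℝ} {y₀ : F} {l₀ : Fin m₀ → ℝ}
    {η₀ : Fin m₀ → F} (hs₀ : IsStencil l₀ η₀) (hpos : 0 < gap w t₀ y₀ l₀ η₀) :
    ∃ G : ℝ, 0 < G ∧ (∀ f : ℝ → F → ℝ, Prof C f → GapLe G f) ∧
      ∃ (f : ℝ → F → ℝ) (l : Fin (Module.finrank ℝ F + 2) → ℝ)
        (η : Fin (Module.finrank ℝ F + 2) → F), Prof C f ∧ f 0 0 = 0 ∧ IsWin C f 0 0 1 0 0 ∧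
          Saturated G f 0 0 l η ∧ spread l η = 1 := by
  obtain ⟨c, -, hc⟩ := gap_le_spread (F := F) C
  set S : Set ℝ := {r | ∃ (f : ℝ → F → ℝ) (m : ℕ) (t : ℝ) (y : F) (l : Fin m → ℝ) (η : Fin m → F),
    Prof C f ∧ IsStencil l η ∧ 0 < spread l η ∧ r = gap f t y l η / spread l η}
  have hbdd : BddAbove S := by
    refine ⟨c, ?_⟩
    rintro r ⟨f, m, t, y, l, η, hf, hs, hp, rfl⟩
    exact (div_le_iff₀ hp).2 (hc hf t y hs)
  have hp0 : 0 < spread l₀ η₀ := by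
    refine (Real.sqrt_nonneg _).lt_of_ne fun h => ?_
    linarith [gap_le_of_spread_zero hw hs₀ (t := t₀) (y := y₀) h.symm]
  have hmem : gap w t₀ y₀ l₀ η₀ / spread l₀ η₀ ∈ S :=
    ⟨w, m₀, t₀, y₀, l₀, η₀, hw, hs₀, hp0, rfl⟩
  set G := sSup S with hGdef
  have hG : 0 < G := (div_pos hpos hp0).trans_le (le_csSup hbdd hmem)
  have hall : ∀ f : ℝ → F → ℝ, Prof C f → GapLe G f := by
    intro f hf m t y l η hs
    rcases eq_or_lt_of_le (show 0 ≤ spread l η from Real.sqrt_nonneg _) with h | h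
    · rw [← h, mul_zero]; exact gap_le_of_spread_zero hf hs h.symm
    · exact (div_le_iff₀ h).1 (le_csSup hbdd ⟨f, m, t, y, l, η, hf, hs, h, rfl⟩)
  refine ⟨G, hG, hall, ?_⟩
  have hseq : ∀ n : ℕ, ∃ (f : ℝ → F → ℝ) (l : Fin (Module.finrank ℝ F + 2) → ℝ)
      (η : Fin (Module.finrank ℝ F + 2) → F), Prof C f ∧ f 0 0 = 0 ∧ IsWin C f 0 0 1 0 0 ∧
        IsStencil l η ∧ spread l η = 1 ∧ G - 1 / ((n : ℝ) + 1) ≤ gap f 0 0 l η := by
    intro n
    obtain ⟨r, ⟨f, m, t, y, l, η, hf, hs, hp, rfl⟩, hr⟩ := exists_lt_of_lt_csSup ⟨_, hmem⟩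
      (show G - 1 / ((n : ℝ) + 1) < sSup S by
        rw [← hGdef]; exact sub_lt_self _ (div_pos one_pos (Nat.cast_add_one_pos n)))
    obtain ⟨l', η', hs', hsp, hsum⟩ := caratheodory hs (fun z => f t (y + z))
    rw [← hsp] at hp hr
    obtain ⟨b, v, hwin⟩ := hf.window t y (spread l' η') hp
    refine ⟨zoom f t y (spread l' η') b v, l', fun i => (spread l' η')⁻¹ • η' i,
      hf.zoom t y hp b v, zoom_origin .., isWin_zoom hp hwin, isStencil_smul hs' _, ?_, ?_⟩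
    · rw [spread_smul _ _ (inv_nonneg.2 hp.le), inv_mul_cancel₀ hp.ne']
    · rw [gap_zoom f t y _ b v 0 0 (isStencil_smul hs' _)]
      simp only [mul_zero, add_zero, zero_smul, smul_zero, smul_inv_smul₀ hp.ne']
      refine hr.le.trans ?_
      gcongr
      simp only [gap] at hsum ⊢
      linarith
  choose W L η hW h0 hwin hs h1 hgapn using hseq
  obtain ⟨φ, f, hφ, hf, hf0, hfwin, hlim⟩ := prof_compact hW h0 hwin
  obtain ⟨ψ, l, e, hψ, hst, hsp, hglim⟩ := gap_tendsto (ρ := 1) (B := 0) (fun n => hW (φ n))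
    (fun n => h0 (φ n)) (fun n => hwin (φ n)) hlim hf (T := fun _ => 0) (Y := fun _ => (0 : F))
    tendsto_const_nhds tendsto_const_nhds (fun n => by simp) (fun n => hs (φ n))
    (fun n => (h1 (φ n)).le)
  have hge : G ≤ gap f 0 0 l e := by
    have h2 : Tendsto (fun n : ℕ => G - 1 / ((n : ℝ) + 1)) atTop (𝓝 G) := by
      simpa using tendsto_one_div_add_atTop_nhds_zero_nat.const_sub G
    exact le_of_tendsto_of_tendsto' (h2.comp (hφ.comp hψ).tendsto_atTop) hglim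
      fun n => hgapn (φ (ψ n))
  have hle := hall f hf _ 0 0 l e hst
  have hsp1 : spread l e = 1 := by nlinarith
  refine ⟨f, l, e, hf, hf0, hfwin, ⟨hst, le_antisymm hle ?_⟩, hsp1⟩
  rw [hsp1, mul_one]
  exact hge

end Vale.Agent.P080.C1
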