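import Vale.Agent.P080.C1.HopfLax
import Vale.Agent.P080.C1.Stencils

/-!
A10 (a): the normalised blow-up of a profile in a window, and its effect on gaps and slopes.
-/

namespace Vale.Agent.P080.C1

open Set Filter Topology
open scoped RealInnerProductSpace

set_option linter.unusedSectionVars false

variable {F : Type*} [NormedAddCommGroup F] [InnerProductSpace ℝ F] [FiniteDimensional ℝ F]
variable {C : ℝ} {w : ℝ → F → ℝ}

/-- The window of radius `h` at `(t₀, y₀)` moved to the unit window at the origin. -/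
noncomputable def zoom (w : ℝ → F → ℝ) (t₀ : ℝ) (y₀ : F) (h b : ℝ) (v : F) : ℝ → F → ℝ :=
  tilt (boost (rescale (shift w t₀ y₀) h) v) (-b)

theorem zoom_apply (w : ℝ → F → ℝ) (t₀ : ℝ) (y₀ : F) (h b : ℝ) (v : F) (T : ℝ) (Y : F) :
    zoom w t₀ y₀ h b v T Y =
      (w (t₀ + h * T) (y₀ + h • (Y + T • v)) - w t₀ y₀) / h - ⟪v, Y⟫
        - (b + ‖v‖ ^ 2 / 2) * T := by
  simp only [zoom, tilt, boost, rescale, shift]
  ring

theorem Prof.zoom (hw : Prof C w) (t₀ : ℝ) (y₀ : F) {h : ℝ} (hh : 0 < h) (b : ℝ) (v : F) :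
    Prof C (zoom w t₀ y₀ h b v) :=
  (((hw.shift t₀ y₀).rescale hh).boost v).tilt (-b)

theorem zoom_origin (w : ℝ → F → ℝ) (t₀ : ℝ) (y₀ : F) (h b : ℝ) (v : F) :
    zoom w t₀ y₀ h b v 0 0 = 0 := by
  simp [zoom_apply]

theorem isWin_zoom {t₀ : ℝ} {y₀ : F} {h b : ℝ} {v : F} (hh : 0 < h)
    (hwin : IsWin C w t₀ y₀ h b v) : IsWin C (zoom w t₀ y₀ h b v) 0 0 1 0 0 := by
  intro τ z hτ hz
  have e1 : |h * τ| ≤ h := by
    rw [abs_mul, abs_of_pos hh]; exact mul_le_of_le_one_right hh.le hτ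
  have e2 : ‖h • z‖ ≤ h := by
    rw [norm_smul, Real.norm_of_nonneg hh.le]; exact mul_le_of_le_one_right hh.le hz
  have e := hwin (h * τ) (h • z) e1 e2
  have ea : y₀ + h • (z + τ • v) = y₀ + (h * τ) • v + h • z := by module
  rw [zero_add, smul_zero, add_zero, zero_add, zoom_origin, zoom_apply, ea]
  simp only [norm_zero, inner_zero_left]
  rw [real_inner_smul_right] at e
  have : (w (t₀ + h * τ) (y₀ + (h * τ) • v + h • z) - w t₀ y₀) / h - ⟪v, z⟫
      - (b + ‖v‖ ^ 2 / 2) * τ - 0 - (0 + 0 ^ 2 / 2) * τ - 0 =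
      (w (t₀ + h * τ) (y₀ + (h * τ) • v + h • z) - w t₀ y₀ - (b + ‖v‖ ^ 2 / 2) * (h * τ)
        - h * ⟪v, z⟫) / h := by
    field_simp
    ring
  rw [this, abs_div, abs_of_pos hh, div_le_iff₀ hh, mul_one]
  exact e

theorem spread_smul {ι : Type*} [Fintype ι] (l : ι → ℝ) (η : ι → F) {h : ℝ} (hh : 0 ≤ h) :
    spread l (fun i => h • η i) = h * spread l η := by
  have e : ∑ i, l i * ‖h • η i‖ ^ 2 = h ^ 2 * ∑ i, l i * ‖η i‖ ^ 2 := by
    rw [Finset.mul_sum]
    refine Finset.sum_congr rfl fun i _ => ?_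
    rw [norm_smul, mul_pow, Real.norm_eq_abs, sq_abs]
    ring
  rw [spread, spread, e, Real.sqrt_mul (sq_nonneg h), Real.sqrt_sq hh]

theorem isStencil_smul {ι : Type*} [Fintype ι] {l : ι → ℝ} {η : ι → F} (hs : IsStencil l η)
    (h : ℝ) : IsStencil l (fun i => h • η i) := by
  refine ⟨hs.1, hs.2.1, ?_⟩
  simp_rw [smul_comm _ h]
  rw [← Finset.smul_sum, hs.2.2, smul_zero]

theorem gap_zoom {ι : Type*} [Fintype ι] (w : ℝ → F → ℝ) (t₀ : ℝ) (y₀ : F) (h b : ℝ) (v : F)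
    (T : ℝ) (Y : F) {l : ι → ℝ} {η : ι → F} (hs : IsStencil l η) :
    gap (zoom w t₀ y₀ h b v) T Y l η =
      gap w (t₀ + h * T) (y₀ + h • (Y + T • v)) l (fun i => h • η i) / h := by
  have hm : ∑ i, l i * ⟪v, η i⟫ = 0 := by
    simp_rw [← real_inner_smul_right]
    rw [← inner_sum, hs.2.2, inner_zero_right]
  have key : ∀ i, l i * zoom w t₀ y₀ h b v T (Y + η i) =
      l i * zoom w t₀ y₀ h b v T Y +
      (l i * w (t₀ + h * T) (y₀ + h • (Y + T • v) + h • η i)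
        - l i * w (t₀ + h * T) (y₀ + h • (Y + T • v))) / h - l i * ⟪v, η i⟫ := by
    intro i
    rw [zoom_apply, zoom_apply, inner_add_right,
      show y₀ + h • (Y + η i + T • v) = y₀ + h • (Y + T • v) + h • η i by module]
    ring
  simp only [gap]
  rw [Finset.sum_congr rfl fun i _ => key i, Finset.sum_sub_distrib, Finset.sum_add_distrib,
    ← Finset.sum_div, Finset.sum_sub_distrib, ← Finset.sum_mul, ← Finset.sum_mul, hs.2.1, hm]
  ring

theorem Sp_zoom (hw : Prof C w) (t₀ : ℝ) (y₀ : F) {h : ℝ} (hh : 0 < h) (b : ℝ) (v : F) {s : ℝ}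
    (hs : 0 < s) : Sp (zoom w t₀ y₀ h b v) s 0 0 = Sp w (h * s) t₀ y₀ - b := by
  have hz := hw.zoom t₀ y₀ hh b v
  have hhs : 0 < h * s := mul_pos hh hs
  have key : ∀ z, zoom w t₀ y₀ h b v (0 + s) (0 + z) - ‖z‖ ^ 2 / (2 * s) =
      (w (t₀ + h * s) (y₀ + h • (z + s • v)) - ‖h • (z + s • v)‖ ^ 2 / (2 * (h * s)) - w t₀ y₀)
        / h - b * s := by
    intro z
    rw [zero_add, zero_add, zoom_apply, norm_smul, mul_pow, Real.norm_eq_abs, sq_abs,
      norm_add_sq_real, norm_smul, mul_pow, Real.norm_eq_abs, sq_abs, real_inner_smul_right,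
      real_inner_comm z v]
    field_simp
    ring
  have e : hlP (zoom w t₀ y₀ h b v) s 0 0 = (hlP w (h * s) t₀ y₀ - w t₀ y₀) / h - b * s := by
    refine le_antisymm ?_ ?_
    · obtain ⟨z, hzv⟩ := hlP_attained hz hs 0 0
      rw [hzv, key]
      gcongr
      exact le_hlP hw hhs t₀ y₀ _
    · obtain ⟨z, hzv⟩ := hlP_attained hw hhs t₀ y₀
      have ee := le_hlP hz hs 0 0 (h⁻¹ • z - s • v)
      rw [key, sub_add_cancel, smul_inv_smul₀ hh.ne', ← hzv] at ee
      exact ee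
  rw [Sp, Sp, e, zoom_origin]
  field_simp
  ring

theorem Sm_zoom (hw : Prof C w) (t₀ : ℝ) (y₀ : F) {h : ℝ} (hh : 0 < h) (b : ℝ) (v : F) {s : ℝ}
    (hs : 0 < s) : Sm (zoom w t₀ y₀ h b v) s 0 0 = Sm w (h * s) t₀ y₀ - b := by
  have hz := hw.zoom t₀ y₀ hh b v
  have hhs : 0 < h * s := mul_pos hh hs
  have key : ∀ z, zoom w t₀ y₀ h b v (0 - s) (0 + z) + ‖z‖ ^ 2 / (2 * s) =
      (w (t₀ - h * s) (y₀ + h • (z - s • v)) + ‖h • (z - s • v)‖ ^ 2 / (2 * (h * s)) - w t₀ y₀)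
        / h + b * s := by
    intro z
    rw [zero_sub, zero_add, zoom_apply, norm_smul, mul_pow, Real.norm_eq_abs, sq_abs,
      norm_sub_sq_real, norm_smul, mul_pow, Real.norm_eq_abs, sq_abs, real_inner_smul_right,
      real_inner_comm z v, show t₀ + h * -s = t₀ - h * s by ring,
      show z + (-s) • v = z - s • v by module]
    field_simp
    ring
  have e : hlM (zoom w t₀ y₀ h b v) s 0 0 = (hlM w (h * s) t₀ y₀ - w t₀ y₀) / h + b * s := by
    refine le_antisymm ?_ ?_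
    · obtain ⟨z, hzv⟩ := hlM_attained hw hhs t₀ y₀
      have ee := hlM_le hz hs 0 0 (h⁻¹ • z + s • v)
      rw [key, add_sub_cancel_right, smul_inv_smul₀ hh.ne', ← hzv] at ee
      exact ee
    · obtain ⟨z, hzv⟩ := hlM_attained hz hs 0 0
      rw [hzv, key]
      gcongr
      exact hlM_le hw hhs t₀ y₀ _
  rw [Sm, Sm, e, zoom_origin]
  field_simp
  ring

theorem Sp_mir (w : ℝ → F → ℝ) (h t : ℝ) (y : F) : Sp (mir w) h (-t) y = Sm w h t y := by
  simp only [Sp, Sm, hlM, mir, neg_neg]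
  ring

theorem Sm_monotone (hw : Prof C w) (t : ℝ) (y : F) :
    MonotoneOn (fun h => Sm w h t y) (Ioi 0) := by
  intro a ha b hb hab
  have := hw.mono_mir (-t) y ha hb hab
  simpa only [Sp_mir] using this

theorem gap_mir {ι : Type*} [Fintype ι] (w : ℝ → F → ℝ) (t : ℝ) (y : F) (l : ι → ℝ) (η : ι → F) :
    gap (mir w) t y l η = -gap w (-t) y l η := by
  simp only [gap, mir, mul_neg, Finset.sum_neg_distrib]
  ring

/-- Gaps are at most a multiple of the spread. -/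
theorem gap_le_spread (C : ℝ) : ∃ c : ℝ, 0 ≤ c ∧ ∀ {w : ℝ → F → ℝ}, Prof C w →
    ∀ {m : ℕ} (t : ℝ) (y : F) {l : Fin m → ℝ} {η : Fin m → F}, IsStencil l η →
      gap w t y l η ≤ c * spread l η := by
  obtain ⟨c, hc, hg⟩ := growth (F := F) C
  refine ⟨4 * c, by linarith, ?_⟩
  intro w hw m t y l η hs
  have hnn : 0 ≤ spread l η := Real.sqrt_nonneg _
  have hsq : ∑ i, l i * ‖η i‖ ^ 2 = spread l η ^ 2 :=
    (Real.sq_sqrt (Finset.sum_nonneg fun i _ => mul_nonneg (hs.1 i) (sq_nonneg _))).symm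
  rcases hnn.eq_or_lt with h0 | h0
  · rw [← h0, mul_zero, gap]
    rw [← h0, zero_pow (by norm_num)] at hsq
    have hz := (Finset.sum_eq_zero_iff_of_nonneg
      fun i _ => mul_nonneg (hs.1 i) (sq_nonneg _)).1 hsq
    have : ∀ i, l i * w t (y + η i) = l i * w t y := fun i => by
      rcases mul_eq_zero.1 (hz i (Finset.mem_univ i)) with h | h
      · simp [h]
      · rw [norm_eq_zero.1 (pow_eq_zero_iff two_ne_zero |>.1 h), add_zero]
    rw [Finset.sum_congr rfl fun i _ => this i, ← Finset.sum_mul, hs.2.1]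
    simp
  obtain ⟨b, v, hwin⟩ := hw.window t y (spread l η) h0
  set ρ := spread l η with hρ
  have hm : ∑ i, l i * ⟪v, η i⟫ = 0 := by
    simp_rw [← real_inner_smul_right]
    rw [← inner_sum, hs.2.2, inner_zero_right]
  have hi : ∀ i, l i * w t (y + η i) ≤ l i * w t y + l i * ⟪v, η i⟫
      + 2 * c * ρ * l i + 2 * c / ρ * (l i * ‖η i‖ ^ 2) := by
    intro i
    have e := (abs_le.1 (hg hw h0 hwin 0 (η i))).2
    simp only [abs_zero, zero_add, zero_smul, add_zero, mul_zero] at e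
    set q := ‖η i‖ / ρ with hq
    have hq0 : 0 ≤ q := by positivity
    have hs1 : Real.sqrt (1 + q) ≤ 1 + q := by
      rw [Real.sqrt_le_left (by linarith)]; nlinarith
    have h2 : (1 + q) * Real.sqrt (1 + q) ≤ 2 + 2 * q ^ 2 := by
      have := mul_le_mul_of_nonneg_left hs1 (show (0 : ℝ) ≤ 1 + q by linarith)
      nlinarith [sq_nonneg (1 - q)]
    have h3 := mul_le_mul_of_nonneg_left h2 (mul_nonneg hc.le hnn)
    have h4 : c * ρ * (2 + 2 * q ^ 2) = 2 * c * ρ + 2 * c / ρ * ‖η i‖ ^ 2 := by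
      rw [hq]; field_simp
    have h5 : w t (y + η i) ≤ w t y + ⟪v, η i⟫ + (2 * c * ρ + 2 * c / ρ * ‖η i‖ ^ 2) := by
      linarith
    nlinarith [mul_le_mul_of_nonneg_left h5 (hs.1 i)]
  have hsum := Finset.sum_le_sum fun i (_ : i ∈ Finset.univ) => hi i
  simp only [Finset.sum_add_distrib] at hsum
  rw [← Finset.sum_mul, ← Finset.mul_sum, ← Finset.mul_sum, hm, hs.2.1, hsq] at hsum
  have e : 2 * c / ρ * ρ ^ 2 = 2 * c * ρ := by field_simp
  rw [gap]
  linarith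

end Vale.Agent.P080.C1
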